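import Vale.Agent.P079.H880.Arbitrary

open Set

namespace Vale.Agent.Results.P079.CommutingFamilies

universe u v

/-- In a reflexive real Banach space `X` (given norm), every commuting family `T i`, `i : I`, of
nonexpansive selfmaps of a nonempty norm-closed bounded convex set `C` has a common fixed point,
and there is a nonexpansive retraction `r` of `C` onto the set of common fixed points. The index
type is arbitrary; for a one-point index type this is the fixed point property of `X`. -/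
theorem result (X : Type u) [NormedAddCommGroup X] [NormedSpace ℝ X] [CompleteSpace X]
    (hX : Function.Surjective (NormedSpace.inclusionInDoubleDual ℝ X))
    (C : Set X) (hne : C.Nonempty) (hcl : IsClosed C) (hb : Bornology.IsBounded C)
    (hco : Convex ℝ C) (I : Type v) (T : I → C → C)
    (hT : ∀ (i : I) (a b : C), ‖(T i a : X) - (T i b : X)‖ ≤ ‖(a : X) - (b : X)‖)
    (hcomm : ∀ (i j : I) (a : C), T i (T j a) = T j (T i a)) :
    (∃ a : C, ∀ i : I, T i a = a) ∧
    ∃ r : C → C, (∀ a b : C, ‖(r a : X) - (r b : X)‖ ≤ ‖(a : X) - (b : X)‖) ∧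
      (∀ (a : C) (i : I), T i (r a) = r a) ∧
      ∀ a : C, (∀ i : I, T i a = a) → r a = a := by
  classical
  let S : I → X → X := fun i x => if h : x ∈ C then (T i ⟨x, h⟩ : X) else x
  have hS : ∀ (i : I) (x : X) (h : x ∈ C), S i x = (T i ⟨x, h⟩ : X) := by
    intro i x h
    simp only [S, dif_pos h]
  have hNE : ∀ i, Vale.Agent.P079.H880.NE C (S i) := by
    intro i
    refine ⟨fun x hx => ?_, fun x hx y hy => ?_⟩
    · rw [hS i x hx]
      exact (T i ⟨x, hx⟩).2
    · rw [hS i x hx, hS i y hy]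
      exact hT i ⟨x, hx⟩ ⟨y, hy⟩
  have hSc : ∀ i j, ∀ x ∈ C, S i (S j x) = S j (S i x) := by
    intro i j x hx
    have h1 : S i (S j x) = (T i (T j ⟨x, hx⟩) : X) := by
      rw [hS j x hx, hS i _ (T j ⟨x, hx⟩).2]
    have h2 : S j (S i x) = (T j (T i ⟨x, hx⟩) : X) := by
      rw [hS i x hx, hS j _ (T i ⟨x, hx⟩).2]
    rw [h1, h2, hcomm]
  obtain ⟨r, ⟨hr1, hr2⟩, hr3, hr4⟩ :=
    Vale.Agent.P079.H880.exists_common_retr hX hcl hb hco hNE hSc
  have hfix : ∀ (a : C) (i : I), T i ⟨r a, hr1 a.2⟩ = ⟨r a, hr1 a.2⟩ := by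
    intro a i
    have h1 := (hr3 a a.2).2 i
    rw [hS i _ (hr1 a.2)] at h1
    exact Subtype.ext h1
  refine ⟨?_, fun a => ⟨r a, hr1 a.2⟩, fun a b => hr2 a a.2 b b.2, hfix, fun a ha => ?_⟩
  · obtain ⟨c, hc⟩ := hne
    exact ⟨⟨r c, hr1 hc⟩, hfix ⟨c, hc⟩⟩
  · refine Subtype.ext (hr4 a ⟨a.2, fun i => ?_⟩)
    rw [hS i _ a.2]
    exact congrArg Subtype.val (ha i)

end Vale.Agent.Results.P079.CommutingFamilies
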