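import Vale.Agent.P079.H709.Final

namespace Vale.Agent.Results.P079.NoCZeroQuotient

open Vale.Agent.P079.H709

universe u v

/-- (1) Every reflexive Banach space has the fixed point property (the question as posed).
Let `X` be an arbitrary Banach space. (2) Let `C` be a nonempty weakly compact convex subset and
`T` a nonexpansive selfmap of `C` without fixed point. Then `c_0` is an almost isometric quotient
of a closed separable subspace of the closed linear span of `C`. (3) If no closed separable
subspace of the closed span of `C` maps onto `c_0`, then commuting families of nonexpansive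
selfmaps of `C` have common fixed points, which form a nonexpansive retract. This holds for all
`C` in `X` (4) if `X` is separable and does not map onto `c_0`, (5) if the dual of `X` contains no
copy of `l_1`, (6) if `X**/X` is separable. -/
theorem result :
    ReflexiveFixedPoints.{u} ∧
    ∀ (X : Type u) [NormedAddCommGroup X] [NormedSpace ℝ X] [CompleteSpace X],
      (∀ C : Set X, WeaklyCompactConvex C → ∀ T : C → C, Nonexpansive T → (∀ a, T a ≠ a) →
        HasC0Quotients C) ∧
      (∀ C : Set X, WeaklyCompactConvex C → ¬ SpanMapsOntoC0 C → CommonFixedPoints.{u, v} C) ∧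
      (TopologicalSpace.SeparableSpace X → ¬ MapsOntoC0 X → WeakFixedPoints.{u, v} X) ∧
      (¬ ContainsL1 (StrongDual ℝ X) → WeakFixedPoints.{u, v} X) ∧
      (SeparableBidualQuotient X → WeakFixedPoints.{u, v} X) := by
  refine ⟨?_, ?_⟩
  · intro X _ _ _ hX C hne hcl hb hco T hT
    exact reflexive_fixed hX C hne hcl hb hco T hT
  · intro X _ _ _
    refine ⟨?_, ?_, fun hs hX => ?_, fun hX => ?_, fun hX => ?_⟩
    · rintro C ⟨hne, hco, hC⟩ T hT hfree η hη
      exact c0_of_free hne hco hC T hT hfree hη
    · rintro C ⟨hne, hco, hC⟩ hq
      exact common_of_fpp hC hne hco (fpp_of_no_quotient hC hq)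
    · rintro C ⟨hne, hco, hC⟩
      exact common_of_fpp hC hne hco (fpp_of_separable hX hC)
    · rintro C ⟨hne, hco, hC⟩
      exact common_of_fpp hC hne hco (fpp_of_no_l1 hX hC)
    · rintro C ⟨hne, hco, hC⟩
      exact common_of_fpp hC hne hco (fpp_of_separable_quotient hX hC)

end Vale.Agent.Results.P079.NoCZeroQuotient
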